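import Vale.Agent.P039.Bz.Stmt
import Vale.Agent.P039.H183.Rank
import Vale.Agent.P039.H484.Hall2

/-! An independent proof of `Bz.PairStmt` (step 5): two disjoint matchings. -/

set_option linter.all false

namespace Vale.Agent.P039.H493

open Vale.Agent.P039.Bn Vale.Agent.P039.Bz Finset

variable {B W V : Type}

/-- the web of a map -/
def web (M : PMap B W V) : Sk.Web B W := ⟨M.e⟩

/-- the labelled web of a map -/
def lab (M : PMap B W V) : Sk.Lab (web M) V where
  c := M.c
  step := M.step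
  exact := M.exact
  cls := M.cls
  surj := M.surj

theorem const_of_conn (M : PMap B W V) (hc : M.Conn) (A : V → ℝ)
    (h : ∀ (b : B) (i : Fin 3), A (M.c (i + 1) b) = A (M.c (i + 2) b)) : ∀ v v', A v = A v' := by
  have h1 : ∀ b (i j : Fin 3), A (M.c i b) = A (M.c j b) := by
    intro b i j
    rcases fcase i j with rfl | rfl | rfl
    · rfl
    · have := h b (j + 2)
      rw [f21, f22] at this
      exact this.symm
    · have := h b (j + 1)
      rw [f11, f12] at this
      exact this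
  have h2 : ∀ b b', ∀ i j, A (M.c i b) = A (M.c j b') := by
    intro b b'
    have := hc b b'
    induction this with
    | rel x y h => intro i j; obtain ⟨k, hk⟩ := h; rw [h1 x i k, hk, h1 y k j]
    | refl x => intro i j; exact h1 x i j
    | symm x y _ ih => intro i j; exact (ih j i).symm
    | trans x y z _ _ ih1 ih2 => intro i j; exact (ih1 i 0).trans (ih2 0 j)
  intro v v'
  obtain ⟨i, b, rfl⟩ := M.surj v
  obtain ⟨j, b', rfl⟩ := M.surj v'
  exact h2 _ _ _ _

section count

variable (P : Fin 3 → Prop) [DecidablePred P]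

def n1 : ℕ := ∑ i : Fin 3, if ¬ (P (i + 1) ∨ P (i + 2)) ∧ P i then 1 else 0

def nE : ℕ := ∑ i : Fin 3, if P (i + 1) ∨ P (i + 2) then 1 else 0

def nx : ℕ := if (P 0 ∧ P 1) ∨ (P 1 ∧ P 2) ∨ (P 2 ∧ P 0) then 1 else 0

theorem fin3 : (if P 0 ∨ P 1 ∨ P 2 then 1 else 0) = n1 P + nx P ∧ nE P = 2 * n1 P + 3 * nx P ∧
    min 2 (univ.filter P).card = n1 P + 2 * nx P := by
  have hc : (univ.filter P).card =
      (if P 0 then 1 else 0) + (if P 1 then 1 else 0) + (if P 2 then 1 else 0) := by
    rw [card_filter, Fin.sum_univ_three]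
  rw [hc]
  unfold n1 nE nx
  simp only [Fin.sum_univ_three]
  have e01 : (0 : Fin 3) + 1 = 1 := rfl
  have e02 : (0 : Fin 3) + 2 = 2 := rfl
  have e11 : (1 : Fin 3) + 1 = 2 := rfl
  have e12 : (1 : Fin 3) + 2 = 0 := rfl
  have e21 : (2 : Fin 3) + 1 = 0 := rfl
  have e22 : (2 : Fin 3) + 2 = 1 := rfl
  simp only [e01, e02, e11, e12, e21, e22]
  by_cases h0 : P 0 <;> by_cases h1 : P 1 <;> by_cases h2 : P 2 <;> simp [h0, h1, h2]

theorem exists3 : (∃ j, P j) ↔ P 0 ∨ P 1 ∨ P 2 := by
  constructor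
  · rintro ⟨j, hj⟩
    fin_cases j
    · exact Or.inl hj
    · exact Or.inr (Or.inl hj)
    · exact Or.inr (Or.inr hj)
  · rintro (h | h | h)
    · exact ⟨0, h⟩
    · exact ⟨1, h⟩
    · exact ⟨2, h⟩

theorem exists3' (i : Fin 3) : (P 0 ∨ P 1 ∨ P 2) ↔ P i ∨ P (i + 1) ∨ P (i + 2) := by
  rw [← exists3]
  constructor
  · rintro ⟨j, hj⟩
    rcases fcase j i with rfl | rfl | rfl
    · exact Or.inl hj
    · exact Or.inr (Or.inl hj)
    · exact Or.inr (Or.inr hj)
  · rintro (h | h | h)
    · exact ⟨_, h⟩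
    · exact ⟨_, h⟩
    · exact ⟨_, h⟩

end count

section

variable [Fintype B] [Fintype W] [DecidableEq V] (M : PMap B W V)

def SB (K : Finset V) : Finset B :=
  univ.filter fun b => M.c 0 b ∈ K ∨ M.c 1 b ∈ K ∨ M.c 2 b ∈ K

def SW (K : Finset V) : Finset W :=
  univ.filter fun w => M.cw 0 w ∈ K ∨ M.cw 1 w ∈ K ∨ M.cw 2 w ∈ K

def ES (K : Finset V) : Finset (B × Fin 3) :=
  univ.filter fun p => M.c (p.2 + 1) p.1 ∈ K ∨ M.c (p.2 + 2) p.1 ∈ K

theorem mem_SB {K : Finset V} {b : B} (i : Fin 3) :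
    b ∈ SB M K ↔ M.c i b ∈ K ∨ M.c (i + 1) b ∈ K ∨ M.c (i + 2) b ∈ K := by
  rw [SB, mem_filter]
  simp only [mem_univ, true_and]
  exact exists3' (fun j => M.c j b ∈ K) i

theorem mem_SW {K : Finset V} {w : W} (i : Fin 3) :
    w ∈ SW M K ↔ M.cw i w ∈ K ∨ M.cw (i + 1) w ∈ K ∨ M.cw (i + 2) w ∈ K := by
  rw [SW, mem_filter]
  simp only [mem_univ, true_and]
  exact exists3' (fun j => M.cw j w ∈ K) i

theorem mem_SB_of {K : Finset V} {b : B} (i : Fin 3) (h : M.c i b ∈ K) : b ∈ SB M K :=
  (mem_SB M i).2 (Or.inl h)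

theorem mem_SW_of {K : Finset V} {w : W} (i : Fin 3) (h : M.cw i w ∈ K) : w ∈ SW M K :=
  (mem_SW M i).2 (Or.inl h)

theorem mem_ES {K : Finset V} {b : B} {i : Fin 3} :
    (b, i) ∈ ES M K ↔ M.c (i + 1) b ∈ K ∨ M.c (i + 2) b ∈ K := by
  rw [ES, mem_filter]
  simp only [mem_univ, true_and]

theorem cw1 (i : Fin 3) (b : B) : M.cw (i + 1) (M.e i b) = M.c (i + 1) b :=
  M.cw_e _ _ (fne1 i).symm b

theorem cw2 (i : Fin 3) (b : B) : M.cw (i + 2) (M.e i b) = M.c (i + 2) b :=
  M.cw_e _ _ (fne2 i).symm b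

/-- the rank inequality for the union of the boundaries of an indecomposable set of faces -/
theorem rank (hc : M.Conn) (K : Finset V) (hne : K.Nonempty) (hout : ∃ v, v ∉ K)
    (hind : ∀ K1 ⊆ K, K1.Nonempty → K1 ≠ K → ∃ b i j, M.c i b ∈ K1 ∧ M.c j b ∈ K \ K1) :
    K.card + (SB M K).card + (SW M K).card ≤ (ES M K).card + 1 := by
  classical
  refine H183.rank_ineq (lab M) (SB M K) (SW M K) (ES M K) K ?_ ?_ ?_ hout
  · intro s t hst
    have hst' : ∀ b i, (M.c (i + 1) b ∈ K ∨ M.c (i + 2) b ∈ K) → s b = t (M.e i b) :=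
      fun b i h => hst (b, i) ((mem_ES M).2 h)
    -- constant around the faces of `K`
    have hface : ∀ j b b', M.c j b = M.c j b' → M.c j b ∈ K → s b = s b' := by
      intro j b b' h
      have hh := M.exact j b b' h
      have : M.c j b ∈ K → s b = s b' ∧ M.c j b' ∈ K := by
        clear h
        induction hh with
        | rel x y hxy =>
          intro hx
          have hy : M.c j y = M.c j x := M.step _ _ _ hxy
          refine ⟨?_, by rw [hy]; exact hx⟩
          have h1 : s x = t (M.e (j + 2) x) := hst' x (j + 2) (Or.inl (by rw [f21]; exact hx))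
          have h2 : s y = t (M.e (j + 1) y) :=
            hst' y (j + 1) (Or.inr (by rw [f12, hy]; exact hx))
          rw [h1, h2, hxy]
        | refl x => intro hx; exact ⟨rfl, hx⟩
        | symm x y hxy ih =>
          intro hy
          have hxy' : M.c j x = M.c j y := M.c_of_eqvGen hxy
          obtain ⟨h1, h2⟩ := ih (by rw [hxy']; exact hy)
          exact ⟨h1.symm, by rw [hxy']; exact hy⟩
        | trans x y z _ _ ih1 ih2 =>
          intro hx
          obtain ⟨h1, h2⟩ := ih1 hx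
          obtain ⟨h3, h4⟩ := ih2 h2
          exact ⟨h1.trans h3, h4⟩
      exact fun hb => (this hb).1
    -- a value for every face of `K`
    choose jj bb hjb using M.surj
    have hval : ∀ j b, M.c j b ∈ K → s b = s (bb (M.c j b)) := by
      intro j b hb
      have h1 := hjb (M.c j b)
      have h2 : jj (M.c j b) = j := M.cls _ _ _ _ h1
      refine hface j b _ ?_ hb
      rw [h2] at h1
      exact h1.symm
    obtain ⟨v0, hv0⟩ := hne
    have hall : ∀ v ∈ K, s (bb v) = s (bb v0) := by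
      by_contra hcon
      push Not at hcon
      obtain ⟨v1, hv1, hv1'⟩ := hcon
      obtain ⟨b, i, j, hi, hj⟩ := hind (K.filter fun v => s (bb v) = s (bb v0))
        (filter_subset _ _) ⟨v0, mem_filter.2 ⟨hv0, rfl⟩⟩
        (fun h => hv1' (mem_filter.1 (show v1 ∈ K.filter (fun v => s (bb v) = s (bb v0)) by
          rw [h]; exact hv1)).2)
      obtain ⟨hiK, hi'⟩ := mem_filter.1 hi
      obtain ⟨hjK, hj'⟩ := mem_sdiff.1 hj
      apply hj'
      refine mem_filter.2 ⟨hjK, ?_⟩
      rw [← hval j b hjK, hval i b hiK, hi']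
    refine ⟨s (bb v0), ?_, ?_⟩
    · intro b hb
      obtain h | h | h := (mem_SB M 0).1 hb
      · rw [hval _ b h, hall _ h]
      · rw [hval _ b h, hall _ h]
      · rw [hval _ b h, hall _ h]
    · intro w hw
      have key : ∀ j, M.cw j w ∈ K → t w = s (bb v0) := by
        intro j hj
        have h1 : M.c j ((M.e (j + 1)).symm w) = M.cw j w := rfl
        have h2 : s ((M.e (j + 1)).symm w) = t (M.e (j + 1) ((M.e (j + 1)).symm w)) :=
          hst' _ (j + 1) (Or.inr (by rw [f12, h1]; exact hj))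
        rw [Equiv.apply_symm_apply] at h2
        rw [← h2, hval j _ (by rw [h1]; exact hj), hall _ (by rw [h1]; exact hj)]
      obtain h | h | h := (mem_SW M 0).1 hw
      · exact key _ h
      · exact key _ h
      · exact key _ h
  · rintro ⟨b, i⟩ hp
    rw [mem_ES, not_or] at hp
    exact hp
  · exact fun A hA => const_of_conn M hc A hA

theorem card_SB (K : Finset V) :
    (SB M K).card = ∑ b, n1 (fun j => M.c j b ∈ K) + ∑ b, nx (fun j => M.c j b ∈ K) := by
  rw [SB, card_filter, ← sum_add_distrib]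
  exact sum_congr rfl fun b _ => (fin3 (fun j => M.c j b ∈ K)).1

theorem card_SW (K : Finset V) :
    (SW M K).card = ∑ w, n1 (fun j => M.cw j w ∈ K) + ∑ w, nx (fun j => M.cw j w ∈ K) := by
  rw [SW, card_filter, ← sum_add_distrib]
  exact sum_congr rfl fun w _ => (fin3 (fun j => M.cw j w ∈ K)).1

theorem card_ES (K : Finset V) :
    (ES M K).card = 2 * ∑ b, n1 (fun j => M.c j b ∈ K) + 3 * ∑ b, nx (fun j => M.c j b ∈ K) := by
  rw [ES, card_filter, Fintype.sum_prod_type, mul_sum, mul_sum, ← sum_add_distrib]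
  exact sum_congr rfl fun b _ => (fin3 (fun j => M.c j b ∈ K)).2.1

theorem card_ES' (K : Finset V) :
    (ES M K).card = 2 * ∑ w, n1 (fun j => M.cw j w ∈ K) + 3 * ∑ w, nx (fun j => M.cw j w ∈ K) := by
  rw [ES, card_filter, Fintype.sum_prod_type, mul_sum, mul_sum, ← sum_add_distrib, sum_comm]
  have h1 : ∀ i : Fin 3, (∑ b : B, if M.c (i + 1) b ∈ K ∨ M.c (i + 2) b ∈ K then 1 else 0) =
      ∑ w : W, if M.cw (i + 1) w ∈ K ∨ M.cw (i + 2) w ∈ K then 1 else 0 := by
    intro i
    rw [← Equiv.sum_comp (M.e i)]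
    refine sum_congr rfl fun b _ => ?_
    rw [cw1, cw2]
  rw [sum_congr rfl fun i _ => h1 i, sum_comm]
  exact sum_congr rfl fun w _ => (fin3 (fun j => M.cw j w ∈ K)).2.1

theorem hall_sum (K : Finset V) :
    ∑ b, min 2 (univ.filter fun j => M.c j b ∈ K).card =
      ∑ b, n1 (fun j => M.c j b ∈ K) + 2 * ∑ b, nx (fun j => M.c j b ∈ K) := by
  rw [mul_sum, ← sum_add_distrib]
  exact sum_congr rfl fun b _ => (fin3 (fun j => M.c j b ∈ K)).2.2

/-- edges off the boundaries, black end on the boundaries only -/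
def bd (K : Finset V) : ℕ :=
  ∑ i : Fin 3, ∑ b : B, if ¬ (M.c (i + 1) b ∈ K ∨ M.c (i + 2) b ∈ K) ∧ M.c i b ∈ K ∧
    M.cw i (M.e i b) ∉ K then 1 else 0

def wd (K : Finset V) : ℕ :=
  ∑ i : Fin 3, ∑ b : B, if ¬ (M.c (i + 1) b ∈ K ∨ M.c (i + 2) b ∈ K) ∧ M.c i b ∉ K ∧
    M.cw i (M.e i b) ∈ K then 1 else 0

def ch (K : Finset V) : ℕ :=
  ∑ i : Fin 3, ∑ b : B, if ¬ (M.c (i + 1) b ∈ K ∨ M.c (i + 2) b ∈ K) ∧ M.c i b ∈ K ∧
    M.cw i (M.e i b) ∈ K then 1 else 0

theorem b1_eq (K : Finset V) : ∑ b, n1 (fun j => M.c j b ∈ K) = ch M K + bd M K := by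
  unfold n1 ch bd
  rw [sum_comm, ← sum_add_distrib]
  refine sum_congr rfl fun i _ => ?_
  rw [← sum_add_distrib]
  refine sum_congr rfl fun b _ => ?_
  by_cases h1 : (M.c (i + 1) b ∈ K ∨ M.c (i + 2) b ∈ K) <;> by_cases h2 : M.c i b ∈ K <;>
    by_cases h3 : M.cw i (M.e i b) ∈ K <;> simp [h1, h2, h3]

theorem w1_eq (K : Finset V) : ∑ w, n1 (fun j => M.cw j w ∈ K) = ch M K + wd M K := by
  unfold n1 ch wd
  rw [sum_comm, ← sum_add_distrib]
  refine sum_congr rfl fun i _ => ?_
  rw [← sum_add_distrib, ← Equiv.sum_comp (M.e i)]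
  refine sum_congr rfl fun b _ => ?_
  simp only [cw1, cw2]
  by_cases h1 : (M.c (i + 1) b ∈ K ∨ M.c (i + 2) b ∈ K) <;> by_cases h2 : M.c i b ∈ K <;>
    by_cases h3 : M.cw i (M.e i b) ∈ K <;> simp [h1, h2, h3]

theorem cut_eq (K : Finset V) :
    cutc M (↑(SB M K) : Set B) (↑(SW M K) : Set W) = bd M K + wd M K := by
  unfold cutc bd wd
  rw [card_filter, Fintype.sum_prod_type, ← sum_add_distrib]
  refine sum_congr rfl fun i _ => ?_
  rw [← sum_add_distrib]
  refine sum_congr rfl fun b _ => ?_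
  simp only [mem_coe, mem_SB M i, mem_SW M i, cw1, cw2]
  by_cases h1 : M.c (i + 1) b ∈ K <;> by_cases h1' : M.c (i + 2) b ∈ K <;>
    by_cases h2 : M.c i b ∈ K <;>
    by_cases h3 : M.cw i (M.e i b) ∈ K <;> simp [h1, h1', h2, h3]

theorem mod_eq (K : Finset V) : 3 * (SB M K).card + wd M K = 3 * (SW M K).card + bd M K := by
  classical
  have h1 : 3 * (SB M K).card = ∑ i : Fin 3, ∑ b : B, if b ∈ SB M K then 1 else 0 := by
    rw [sum_const, card_univ, Fintype.card_fin, smul_eq_mul, ← card_filter]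
    congr 2
    ext b; simp
  have h2 : 3 * (SW M K).card = ∑ i : Fin 3, ∑ b : B, if M.e i b ∈ SW M K then 1 else 0 := by
    have : ∀ i : Fin 3, (∑ b : B, if M.e i b ∈ SW M K then 1 else 0) = (SW M K).card := by
      intro i
      rw [Equiv.sum_comp (M.e i) (fun w => if w ∈ SW M K then 1 else 0), ← card_filter]
      congr 1
      ext b; simp
    rw [sum_congr rfl fun i _ => this i, sum_const, card_univ, Fintype.card_fin, smul_eq_mul]
  rw [h1, h2]
  unfold bd wd
  rw [← sum_add_distrib, ← sum_add_distrib]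
  refine sum_congr rfl fun i _ => ?_
  rw [← sum_add_distrib, ← sum_add_distrib]
  refine sum_congr rfl fun b _ => ?_
  simp only [mem_SB M i, mem_SW M i, cw1, cw2]
  by_cases h1 : M.c (i + 1) b ∈ K <;> by_cases h1' : M.c (i + 2) b ∈ K <;>
    by_cases h2 : M.c i b ∈ K <;>
    by_cases h3 : M.cw i (M.e i b) ∈ K <;> simp [h1, h1', h2, h3]

/-- Hall's condition for indecomposable sets of faces -/
theorem hall_conn (hc : M.Conn) (h3 : C3 M) (h4 : C4 M) (b₀ : B) (K : Finset V)
    (hK : ∀ j, M.c j b₀ ∉ K) (hne : K.Nonempty)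
    (hind : ∀ K1 ⊆ K, K1.Nonempty → K1 ≠ K → ∃ b i j, M.c i b ∈ K1 ∧ M.c j b ∈ K \ K1) :
    2 * K.card ≤ ∑ b, min 2 (univ.filter fun j => M.c j b ∈ K).card := by
  classical
  have hr := rank M hc K hne ⟨_, hK 0⟩ hind
  have e1 := card_SB M K
  have e2 := card_SW M K
  have e3 := card_ES M K
  have e4 := card_ES' M K
  have e5 := hall_sum M K
  have e6 := b1_eq M K
  have e7 := w1_eq M K
  have e8 := cut_eq M K
  have e9 := mod_eq M K
  have hb0 : b₀ ∉ SB M K := by
    rw [mem_SB M 0]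
    rintro (h | h | h) <;> exact hK _ h
  obtain ⟨v, hv⟩ := hne
  obtain ⟨j, b, rfl⟩ := M.surj v
  have hbS : b ∈ SB M K := mem_SB_of M j hv
  have hwS : M.e (j + 1) b ∈ SW M K := by
    refine mem_SW_of M j ?_
    rw [M.cw_e j (j + 1) (fne1 j)]
    exact hv
  have hcut : 3 ≤ cutc M (↑(SB M K) : Set B) (↑(SW M K) : Set W) :=
    h3 _ _ (Or.inl ⟨b, hbS⟩) (Or.inl ⟨b₀, fun h => hb0 h⟩)
  have hbad : ¬ (bd M K = 3 ∧ wd M K = 0) := by
    rintro ⟨hb3, hw0⟩
    have hc3 : cutc M (↑(SB M K) : Set B) (↑(SW M K) : Set W) = 3 := by omega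
    rcases h4 _ _ hc3 with h | h
    · rw [Set.ncard_coe_finset, Set.ncard_coe_finset] at h
      have h1 : 0 < (SB M K).card := card_pos.2 ⟨b, hbS⟩
      have h2 : 0 < (SW M K).card := card_pos.2 ⟨_, hwS⟩
      omega
    · have h1 : 0 < ((↑(SB M K) : Set B)ᶜ).ncard := by
        rw [Set.ncard_pos]
        exact ⟨b₀, fun h => hb0 h⟩
      have h2 : ((↑(SW M K) : Set W)ᶜ).ncard = 0 := by omega
      rw [Set.ncard_eq_zero, Set.compl_empty_iff] at h2
      have h5 : M.e 0 b₀ ∈ SW M K := by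
        have : M.e 0 b₀ ∈ (↑(SW M K) : Set W) := by rw [h2]; trivial
        exact this
      rw [mem_SW M 0, cw1, cw2] at h5
      have h6 : M.cw 0 (M.e 0 b₀) ∈ K := by
        rcases h5 with h | h | h
        · exact h
        · exact absurd h (hK _)
        · exact absurd h (hK _)
      have h7 : 1 ≤ wd M K := by
        unfold wd
        refine le_trans ?_ (single_le_sum (f := fun i : Fin 3 => ∑ b : B,
          if ¬ (M.c (i + 1) b ∈ K ∨ M.c (i + 2) b ∈ K) ∧ M.c i b ∉ K ∧
            M.cw i (M.e i b) ∈ K then 1 else 0) (fun _ _ => Nat.zero_le _) (mem_univ 0))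
        refine le_trans ?_ (single_le_sum (f := fun b : B =>
          if ¬ (M.c ((0 : Fin 3) + 1) b ∈ K ∨ M.c (0 + 2) b ∈ K) ∧ M.c 0 b ∉ K ∧
            M.cw 0 (M.e 0 b) ∈ K then 1 else 0) (fun _ _ => Nat.zero_le _) (mem_univ b₀))
        rw [if_pos ⟨by rintro (h | h) <;> exact hK _ h, hK 0, h6⟩]
      omega
  omega

/-- Hall's condition for all sets of faces away from `b₀` -/
theorem hall_all (hc : M.Conn) (h3 : C3 M) (h4 : C4 M) (b₀ : B) :
    ∀ (n : ℕ) (K : Finset V), K.card = n → (∀ j, M.c j b₀ ∉ K) →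
      2 * K.card ≤ ∑ b, min 2 (univ.filter fun j => M.c j b ∈ K).card := by
  intro n
  induction n using Nat.strong_induction_on with
  | _ n ih =>
    intro K hKn hK
    rcases K.eq_empty_or_nonempty with h0 | hne
    · rw [h0]; simp
    by_cases hind : ∀ K1 ⊆ K, K1.Nonempty → K1 ≠ K → ∃ b i j, M.c i b ∈ K1 ∧ M.c j b ∈ K \ K1
    · exact hall_conn M hc h3 h4 b₀ K hK hne hind
    · push Not at hind
      obtain ⟨K1, hsub, hne1, hneq, hdis⟩ := hind
      have hss : K1 ⊂ K := hsub.ssubset_of_ne hneq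
      have hc1 : K1.card < K.card := card_lt_card hss
      have hc2 : (K \ K1).card < K.card := by
        refine card_lt_card ⟨sdiff_subset, fun h => ?_⟩
        obtain ⟨v, hv⟩ := hne1
        exact (mem_sdiff.1 (h (hsub hv))).2 hv
      have i1 := ih _ (hKn ▸ hc1) K1 rfl (fun j h => hK j (hsub h))
      have i2 := ih _ (hKn ▸ hc2) (K \ K1) rfl (fun j h => hK j (mem_sdiff.1 h).1)
      have hcard : K.card = K1.card + (K \ K1).card := by
        rw [card_sdiff_of_subset hsub]; omega
      have hsum : ∑ b, min 2 (univ.filter fun j => M.c j b ∈ K).card =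
          ∑ b, min 2 (univ.filter fun j => M.c j b ∈ K1).card +
            ∑ b, min 2 (univ.filter fun j => M.c j b ∈ K \ K1).card := by
        rw [← sum_add_distrib]
        refine sum_congr rfl fun b _ => ?_
        by_cases hb : ∃ i, M.c i b ∈ K1
        · obtain ⟨i, hi⟩ := hb
          have h1 : (univ.filter fun j => M.c j b ∈ K \ K1) = ∅ := by
            rw [filter_eq_empty_iff]
            intro j _ hj
            exact hdis b i j hi hj
          have h2 : (univ.filter fun j => M.c j b ∈ K) = univ.filter fun j => M.c j b ∈ K1 := by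
            ext j
            simp only [mem_filter, mem_univ, true_and]
            constructor
            · intro hj
              by_contra hj'
              exact hdis b i j hi (mem_sdiff.2 ⟨hj, hj'⟩)
            · exact fun hj => hsub hj
          rw [h1, h2]; simp
        · push Not at hb
          have h1 : (univ.filter fun j => M.c j b ∈ K1) = ∅ := by
            rw [filter_eq_empty_iff]
            intro j _ hj
            exact hb j hj
          have h2 : (univ.filter fun j => M.c j b ∈ K) =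
              univ.filter fun j => M.c j b ∈ K \ K1 := by
            ext j
            simp only [mem_filter, mem_univ, true_and, mem_sdiff]
            exact ⟨fun hj => ⟨hj, hb j⟩, fun hj => hj.1⟩
          rw [h1, h2]; simp
      rw [hsum]
      omega

end

theorem pairStmt : PairStmt := by
  classical
  intro B W V _ _ _ M hM h3 h4 b₀
  have hinj : Function.Injective (fun j : Fin 3 => M.c j b₀) := fun j j' h => M.cls _ _ _ _ h
  have hcB : Fintype.card (BOff b₀) + 1 = Fintype.card B := by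
    have h1 : Fintype.card (BOff b₀) = (univ.filter fun b : B => b ≠ b₀).card :=
      Fintype.card_subtype _
    have h2 : (univ.filter fun b : B => b ≠ b₀) = ({b₀} : Finset B)ᶜ := by
      ext b
      simp
    have h6 := card_compl_add_card ({b₀} : Finset B)
    rw [h1, h2, ← h6, card_singleton]
  have hcV : Fintype.card (VOff M b₀) + 3 = Fintype.card V := by
    have h1 : Fintype.card (VOff M b₀) = (univ.filter fun v : V => ∀ j, M.c j b₀ ≠ v).card :=
      Fintype.card_subtype _
    have h2 : (univ.filter fun v : V => ∀ j, M.c j b₀ ≠ v) =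
        (univ.image fun j : Fin 3 => M.c j b₀)ᶜ := by
      ext v
      simp
    have h5 : (univ.image fun j : Fin 3 => M.c j b₀).card = 3 := by
      rw [card_image_of_injective _ hinj]; simp
    have h6 := card_compl_add_card (univ.image fun j : Fin 3 => M.c j b₀)
    rw [h1, h2, ← h6, h5]
  have hcard : Fintype.card (BOff b₀) = Fintype.card (VOff M b₀) := by
    have := hM.card
    omega
  have hFo : ∀ (K : Finset (VOff M b₀)) (b : BOff b₀) (j : Fin 3),
      (∃ v ∈ K, Fo M b₀ b j = some v) ↔ M.c j b.1 ∈ K.map ⟨Subtype.val, Subtype.val_injective⟩ := by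
    intro K b j
    rw [mem_map]
    constructor
    · rintro ⟨v, hv, h⟩
      refine ⟨v, hv, ?_⟩
      unfold Fo at h
      split_ifs at h with hj
      exact (congrArg Subtype.val (Option.some.inj h)).symm
    · rintro ⟨v, hv, h⟩
      refine ⟨v, hv, ?_⟩
      have h' : v.1 = M.c j b.1 := h
      have hj : ∀ i, M.c i b₀ ≠ M.c j b.1 := fun i => by rw [← h']; exact v.2 i
      unfold Fo
      rw [dif_pos hj]
      congr 1
      exact Subtype.ext h'.symm
  obtain ⟨f, g, e, e', hfg, hf, hg⟩ := H484.two_matchings_option (Fo M b₀) hcard (by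
    intro K
    have h1 := hall_all M hM.conn h3 h4 b₀ _ (K.map ⟨Subtype.val, Subtype.val_injective⟩) rfl (by
      intro j hj
      rw [mem_map] at hj
      obtain ⟨v, hv, h⟩ := hj
      exact v.2 j h.symm)
    rw [card_map] at h1
    refine h1.trans (le_of_eq ?_)
    rw [Fintype.sum_eq_add_sum_subtype_ne _ b₀]
    have h2 : (univ.filter fun j => M.c j b₀ ∈
        K.map ⟨Subtype.val, Subtype.val_injective⟩) = ∅ := by
      rw [filter_eq_empty_iff]
      intro j _ hj
      rw [mem_map] at hj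
      obtain ⟨v, hv, h⟩ := hj
      exact v.2 j h.symm
    rw [h2]
    simp only [card_empty, Nat.min_zero, zero_add]
    refine sum_congr rfl fun b _ => ?_
    congr 2
    ext j
    simp only [mem_filter, mem_univ, true_and]
    exact (hFo K b j).symm)
  exact ⟨f, g, ⟨e, hf⟩, ⟨e', hg⟩, hfg⟩

end Vale.Agent.P039.H493
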